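import Vale.Agent.P354YC.Col
import Vale.Agent.P354XJ.Lim
import Vale.Agent.P354XV.Defs
import Vale.Agent.P354Z.Defs

/-!
The maximal globally hyperbolic development: definitions and exact statements of the steps.
-/

open scoped ContDiff
open Set Filter Topology Metric

namespace Vale.Agent.P354CB

open Vale.Agent.P354n
open Vale.Agent.P354I (X Dat IsDev)
open Vale.Agent.P354J (PDy)
open Vale.Agent.P354XE (Tw Lor pt)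
open Vale.Agent.P354XJ (Iso Tm)
open Vale.Agent.P354YC (IndAt Is)
open Vale.Agent.P354XV (CnAt)
open Vale.Agent.P354Z (IsMGHD)

/-! ### Causal relations -/

/-- A smooth vacuum spacetime. -/
structure St (M : Spc) : Prop where
  sp : IsSpacetime IsSmooth M
  vac : IsVacuum M

/-- Future timelike curves. -/
abbrev Cv (M : Spc) (I : Set ℝ) (c : ℝ → M.pt) : Prop := IsFutureCurve M 0 I c

/-- The chronological relation, the causal relation, future and past of a set. -/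
def LL (M : Spc) (a b : M.pt) : Prop := ∃ c, Cv M (Icc 0 1) c ∧ c 0 = a ∧ c 1 = b
def Le (M : Spc) (a b : M.pt) : Prop := (∀ z, LL M b z → LL M a z) ∧ ∀ w, LL M w a → LL M w b
def Fu (M : Spc) (S : Set M.pt) : Set M.pt := {x | ∃ s ∈ S, LL M s x}
def Pa (M : Spc) (S : Set M.pt) : Set M.pt := {x | ∃ s ∈ S, LL M x s}

/-- No end point in U. -/
def NoF {Z : Type} [TopologicalSpace Z] (c : ℝ → Z) (b : ℝ) (U : Set Z) : Prop :=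
  ∀ x ∈ U, ¬ Tendsto c (𝓝[<] b) (𝓝 x)
def NoP {Z : Type} [TopologicalSpace Z] (c : ℝ → Z) (a : ℝ) (U : Set Z) : Prop :=
  ∀ x ∈ U, ¬ Tendsto c (𝓝[>] a) (𝓝 x)

/-- S is a Cauchy surface; GH: S is also acausal. -/
structure GH0 (M : Spc) (S : Set M.pt) : Prop where
  st : St M
  sc : SecondCountableTopology M.pt
  cauchy : ∀ c, Cv M (Ioo 0 1) c →
    (∀ x, ¬ Tendsto c (𝓝[<] 1) (𝓝 x) ∧ ¬ Tendsto c (𝓝[>] 0) (𝓝 x)) →
    ∃! t, t ∈ Ioo (0 : ℝ) 1 ∧ c t ∈ S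

structure GH (M : Spc) (S : Set M.pt) : Prop extends GH0 M S where
  ac : ∀ s ∈ S, ∀ s' ∈ S, Le M s s' → s = s'

/-- Open sets which contain everything between their points and S. -/
structure Hull (M : Spc) (S U : Set M.pt) : Prop where
  op : IsOpen U
  dn : ∀ x ∈ U, ∀ w, LL M w x → w ∉ Pa M S → w ∈ U
  up : ∀ x ∈ U, ∀ w, LL M x w → w ∉ Fu M S → w ∈ U

/-- A small ball in a chart. -/
structure NB {M : Spc} (e : M.Chart) (p : R4) (r L c : ℝ) (T : R4) : Prop where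
  r0 : 0 < r
  c0 : 0 < c
  L0 : 0 ≤ L
  sub : closedBall p r ⊆ tgt e
  tl : ∀ z ∈ closedBall p r, M.g e z T T < 0 ∧ M.g e z T (M.X e z) < 0
  cone : ∀ z ∈ closedBall p r, ∀ z' ∈ closedBall p r, ∀ a, M.g e z a a ≤ 0 →
    M.g e z a (M.X e z) ≤ 0 → c * ‖a‖ ≤ -M.g e z' a T
  lip : ∀ z ∈ closedBall p r, ∀ z' ∈ closedBall p r, ∀ a b,
    |M.g e z a b - M.g e z' a b| ≤ L * ‖z - z'‖ * ‖a‖ * ‖b‖

/-- Basic facts: time reversal, curves, segments. -/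
structure B0 : Prop where
  st_rev : ∀ {M}, St M → St (rev M)
  cv_rev : ∀ {M}, St M → ∀ {I c} (s : ℝ),
    Cv (rev M) I c ↔ Cv M ((fun t => s - t) ⁻¹' I) fun t => c (s - t)
  ll_rev : ∀ {M}, St M → ∀ {a b}, LL (rev M) a b ↔ LL M b a
  le_rev : ∀ {M}, St M → ∀ {a b}, Le (rev M) a b ↔ Le M b a
  fu_rev : ∀ {M}, St M → ∀ S, Fu (rev M) S = Pa M S
  pa_rev : ∀ {M}, St M → ∀ S, Pa (rev M) S = Fu M S
  gh0_rev : ∀ {M S}, GH0 M S → GH0 (rev M) S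
  gh_rev : ∀ {M S}, GH M S → GH (rev M) S
  hull_rev : ∀ {M}, St M → ∀ {S U}, Hull (rev M) S U ↔ Hull M S U
  mono : ∀ {M I J c}, Cv M I c → J ⊆ I → UniqueDiffOn ℝ J → Cv M J c
  congr : ∀ {M I c c'}, Cv M I c → EqOn c' c I → Cv M I c'
  loc : ∀ {M I c}, (∀ t ∈ I, ∃ J c', J ∈ 𝓝[I] t ∧ J ⊆ I ∧ Cv M J c' ∧ EqOn c c' J) → Cv M I c
  aff : ∀ {M}, St M → ∀ {I J c} {s l : ℝ}, 0 < l → UniqueDiffOn ℝ J →
    MapsTo (fun x : ℝ => s + x * l) J I → Cv M I c → Cv M J fun x => c (s + x * l)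
  chart : ∀ {M}, St M → ∀ {e : M.Chart} {I} {x x' : ℝ → R4}, UniqueDiffOn ℝ I →
    ContinuousOn x' I → (∀ t ∈ I, x t ∈ tgt e ∧ HasDerivWithinAt x (x' t) I t ∧
      M.g e (x t) (x' t) (x' t) < 0 ∧ M.g e (x t) (x' t) (M.X e (x t)) < 0) →
    Cv M I fun t => inv e (x t)
  vel : ∀ {M I c} {e : M.Chart}, Cv M I c → UniqueDiffOn ℝ I → (∀ t ∈ I, On e (c t)) →
    ∃ x' : ℝ → R4, ContinuousOn x' I ∧ ∀ t ∈ I, HasDerivWithinAt (fun s => co e (c s)) (x' t) I t ∧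
      M.g e (co e (c t)) (x' t) (x' t) < 0 ∧ M.g e (co e (c t)) (x' t) (M.X e (co e (c t))) < 0
  ll_cv : ∀ {M}, St M → ∀ {I c} {s t : ℝ}, Cv M I c → Icc s t ⊆ I → s < t → LL M (c s) (c t)
  seg : ∀ {M}, St M → ∀ {e : M.Chart} {z v}, (∀ t ∈ Icc (0 : ℝ) 1, z + t • v ∈ tgt e ∧
    M.g e (z + t • v) v v < 0 ∧ M.g e (z + t • v) v (M.X e (z + t • v)) < 0) →
    Cv M (Icc 0 1) fun t => inv e (z + t • v)
  ray : ∀ {M}, St M → ∀ {e : M.Chart} {z a}, z ∈ tgt e → M.g e z a a < 0 →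
    M.g e z a (M.X e z) < 0 → ∀ᶠ s in 𝓝[>] (0 : ℝ),
      LL M (inv e (z - s • a)) (inv e z) ∧ LL M (inv e z) (inv e (z + s • a))
  nearF : ∀ {M}, St M → ∀ a, a ∈ closure {b | LL M a b}
  nearP : ∀ {M}, St M → ∀ b, b ∈ closure {a | LL M a b}
  midP : ∀ {M}, St M → ∀ {a b}, LL M a b → ∀ V ∈ 𝓝 a, ∃ q ∈ V, LL M a q ∧ LL M q b
  midF : ∀ {M}, St M → ∀ {a b}, LL M a b → ∀ V ∈ 𝓝 b, ∃ q ∈ V, LL M a q ∧ LL M q b
  past : ∀ {M}, St M → ∀ x, ∀ V ∈ 𝓝 x, ∃ w ∈ V, ∀ᶠ x' in 𝓝 x,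
    ∃ c, Cv M (Icc 0 1) c ∧ MapsTo c (Icc 0 1) V ∧ c 0 = w ∧ c 1 = x'
  lc : ∀ M : Spc, LocallyCompactSpace M.pt
  met : ∀ M : Spc, SecondCountableTopology M.pt → TopologicalSpace.MetrizableSpace M.pt

def CORNER : Prop := ∀ M, St M → ∀ (a b c : ℝ) (u v : ℝ → M.pt), a < b → b < c →
  Cv M (Icc a b) u → Cv M (Icc b c) v → u b = v b →
  ∃ w, Cv M (Icc a c) w ∧ EqOn w u (Icc a b) ∧ w c = v c

def OPEN : Prop := ∀ M, St M → ∀ a, IsOpen {b | LL M a b}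

def NBALL : Prop := ∀ M, St M → ∀ (e : M.Chart), ∀ p ∈ tgt e, ∃ r L c, NB e p r L c (M.X e p)

def PU : Prop := ∀ M, St M → ∀ x : M.pt, ∃ V ∈ 𝓝 x, ∀ a ∈ V, ∀ b ∈ V,
  (a, b) ∈ closure {q : M.pt × M.pt |
    ∃ c, Cv M (Icc 0 1) c ∧ MapsTo c (Icc 0 1) V ∧ c 0 = q.1 ∧ c 1 = q.2} → Le M a b

def CHAIN : Prop := ∀ M, St M → ∀ (a b : ℝ) (u : ℝ → M.pt) (q : ℕ → M.pt), a < b →
  Cv M (Icc a b) u → q 0 = u b → (∀ n, LL M (q n) (q (n + 1))) →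
  ∃ w, Cv M (Ico a (b + 1)) w ∧ EqOn w u (Icc a b) ∧ ∀ n : ℕ, w (b + 1 - (1 / 2) ^ n) = q n

def EXTF : Prop := ∀ M, St M → SecondCountableTopology M.pt → ∀ (a b : ℝ) (u : ℝ → M.pt), a < b →
  Cv M (Icc a b) u → ∃ w, Cv M (Ico a (b + 1)) w ∧ EqOn w u (Icc a b) ∧ NoF w (b + 1) univ

/-- The local causal facts. -/
structure L1 : Prop where
  b : B0
  corner : CORNER
  opn : OPEN
  nb : NBALL
  pu : PU
  chain : CHAIN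
  extf : EXTF

structure G1 (M : Spc) (S : Set M.pt) : Prop where
  cau : ∀ (a b : ℝ) c, a < b → Cv M (Ioo a b) c → NoP c a univ → NoF c b univ →
    ∃! t, t ∈ Ioo a b ∧ c t ∈ S
  ext : ∀ (a b : ℝ) c, a < b → Cv M (Icc a b) c → ∃ w, Cv M (Ioo (a - 1) (b + 1)) w ∧
    EqOn w c (Icc a b) ∧ NoP w (a - 1) univ ∧ NoF w (b + 1) univ
  achr : ∀ s ∈ S, ∀ s' ∈ S, ¬ LL M s s'
  tri : ∀ x, x ∈ S ∨ x ∈ Fu M S ∨ x ∈ Pa M S
  nopast : ∀ (a b : ℝ) c, a < b → Cv M (Ioc a b) c → NoP c a univ → ∃ t ∈ Ioc a b, c t ∈ Pa M S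
  nochain : ∀ q : ℕ → M.pt, (∀ n, LL M (q (n + 1)) (q n)) → (∀ n, q n ∉ Pa M S) →
    ∃ x, Tendsto q atTop (𝓝 x)

def GONE : Prop := ∀ M S, GH0 M S → G1 M S

def LIM : Prop := ∀ M S, GH0 M S → ∀ (ι : Type) (F : Ultrafilter ι) (a b : ι → M.pt) (y : M.pt),
  (∀ᶠ i in F, LL M (a i) (b i) ∧ a i ∉ Pa M S) → Tendsto b F (𝓝 y) →
  ∃ x, Tendsto a F (𝓝 x) ∧ Le M x y

structure G2 (M : Spc) (S : Set M.pt) : Prop where
  cl : IsClosed {q : M.pt × M.pt | q.1 ∉ Pa M S ∧ Le M q.1 q.2}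
  cpt : ∀ y, IsCompact {x | x ∉ Pa M S ∧ Le M x y}
  anti : ∀ x y, x ∉ Pa M S → Le M x y → Le M y x → x = y

def ORD : Prop := ∀ M S, GH0 M S → G2 M S

structure G3 (M : Spc) (S : Set M.pt) : Prop where
  meets : ∀ U, Hull M S U → ∀ (a b : ℝ) c, a < b → Cv M (Ioo a b) c → MapsTo c (Ioo a b) U →
    NoP c a U → NoF c b U → ∃ t ∈ Ioo a b, c t ∈ S
  of_meets : ∀ U, IsOpen U → (∀ (a b : ℝ) c, a < b → Cv M (Ioo a b) c → MapsTo c (Ioo a b) U →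
    NoP c a U → NoF c b U → ∃ t ∈ Ioo a b, c t ∈ S) → Hull M S U
  base : ∀ s ∈ S, ∀ W ∈ 𝓝 s, ∃ U ⊆ W, Hull M S U ∧ s ∈ U
  con : ∀ U, Hull M S U → ∀ x ∈ U, ∃ s ∈ S, ∃ C ⊆ U, IsPreconnected C ∧ x ∈ C ∧ s ∈ C

def HULL : Prop := ∀ M S, GH M S → G3 M S

/-! ### Local isometries -/

/-- ψ is a local isometry at x. -/
def LM {M N : Spc} (ψ : M.pt → N.pt) (x : M.pt) : Prop :=
  ContinuousAt ψ x ∧
    ∀ e e', On e x → On e' (ψ x) → Iso e e' (fun y => co e' (ψ (inv e y))) (co e x)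

structure LK1 : Prop where
  congr : ∀ {M N : Spc} {ψ ψ' : M.pt → N.pt} {x}, LM ψ x → ψ' =ᶠ[𝓝 x] ψ → LM ψ' x
  chart : ∀ {M N : Spc}, St M → St N → ∀ {ψ : M.pt → N.pt} {x e e'}, ContinuousAt ψ x → On e x →
    On e' (ψ x) → Iso e e' (fun y => co e' (ψ (inv e y))) (co e x) → LM ψ x
  comp : ∀ {M N P : Spc}, St M → St N → St P → ∀ {ψ : M.pt → N.pt} {φ : N.pt → P.pt} {x},
    LM ψ x → LM φ (ψ x) → LM (φ ∘ ψ) x
  of_isom : ∀ {M N : Spc} {κ : M.pt → N.pt}, IsIsom κ → Continuous κ → ∀ x, LM κ x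
  isom : ∀ {M N : Spc} {κ : M.pt → N.pt}, (∀ x, LM κ x) → IsIsom κ
  curve : ∀ {M N : Spc}, St M → St N → ∀ {ψ : M.pt → N.pt} {I c}, UniqueDiffOn ℝ I → Cv M I c →
    (∀ t ∈ I, LM ψ (c t)) → Cv N I fun t => ψ (c t)
  rev : ∀ {M N : Spc}, St N → ∀ {ψ : M.pt → N.pt} {x}, LM (M := rev M) (N := rev N) ψ x ↔ LM ψ x

structure LK2 : Prop where
  inv : ∀ {M N : Spc}, St M → St N → ∀ {ψ : M.pt → N.pt} {x}, (∀ᶠ z in 𝓝 x, LM ψ z) →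
    ∃ (W : Set M.pt) (φ : N.pt → M.pt), IsOpen W ∧ x ∈ W ∧ IsOpen (ψ '' W) ∧
      ∀ z ∈ W, LM ψ z ∧ φ (ψ z) = z ∧ LM φ (ψ z)
  rig : ∀ {M N : Spc}, St M → St N → ∀ {ψ ψ' : M.pt → N.pt} {U C p}, IsOpen U →
    (∀ x ∈ U, LM ψ x ∧ LM ψ' x) → C ⊆ U → IsPreconnected C → p ∈ C → ψ =ᶠ[𝓝 p] ψ' → EqOn ψ ψ' C
  jet : ∀ {M N : Spc}, St M → St N → ∀ {ψ ψ' : M.pt → N.pt} {j : X → M.pt} {d : Dat} {y e},
    ContinuousAt j y → On e (j y) → ContDiffAt ℝ ∞ (fun z => co e (j z)) y → (d.h y).PosDef →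
    IndAt (M.g e) (M.X e) (fun z => co e (j z)) d y → (∀ᶠ x in 𝓝 (j y), LM ψ x ∧ LM ψ' x) →
    (∀ᶠ z in 𝓝 y, ψ (j z) = ψ' (j z)) → ψ =ᶠ[𝓝 (j y)] ψ'
  ind : ∀ {M N : Spc}, St M → St N → ∀ {ψ : M.pt → N.pt} {j : X → M.pt} {d : Dat} {y e e'},
    ContinuousAt j y → On e (j y) → ContDiffAt ℝ ∞ (fun z => co e (j z)) y →
    IndAt (M.g e) (M.X e) (fun z => co e (j z)) d y → (∀ᶠ x in 𝓝 (j y), LM ψ x) →
    On e' (ψ (j y)) → ContDiffAt ℝ ∞ (fun z => co e' (ψ (j z))) y ∧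
      IndAt (N.g e') (N.X e') (fun z => co e' (ψ (j z))) d y

/-- The connection as a smooth field, and the equation for the second derivative of an isometry. -/
structure LK3 : Prop where
  gam : ∀ {g D Xf}, Lor g D Xf → ∃ Γ : R4 → R4 →L[ℝ] R4 →L[ℝ] R4, ContDiffOn ℝ ∞ Γ D ∧
    ∀ y ∈ D, ∀ G, IsConn g G y ↔ ∀ a b, G y a b = Γ y a b
  je : ∀ {g D Xf g' D' Xf'}, Lor g D Xf → Lor g' D' Xf' → ∀ {F : R4 → R4} {p G G'},
    (∀ᶠ z in 𝓝 p, z ∈ D ∧ F z ∈ D' ∧ Is g Xf g' Xf' F z) → IsConn g G p → IsConn g' G' (F p) →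
    ∀ a b, fderiv ℝ (fderiv ℝ F) p a b =
      fderiv ℝ F p (G p a b) - G' (F p) (fderiv ℝ F p a) (fderiv ℝ F p b)

/-! ### Developments of parts of the data -/

/-- N is a development of the part of d on O. -/
structure Dev (d : Dat) (O : Set X) (N : Spc) (j : X → N.pt) : Prop where
  gh : GH0 N (j '' O)
  op : IsOpen O
  ne : O.Nonempty
  nz : O ⊆ {0}ᶜ
  emb : IsEmbedding fun y : O => j y
  ind : ∀ y ∈ O, ∀ e, On e (j y) → ContDiffAt ℝ ∞ (fun z => co e (j z)) y ∧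
    IndAt (N.g e) (N.X e) (fun z => co e (j z)) d y

def AC : Prop := ∀ d O N j, PDy d → Dev d O N j → GH N (j '' O)

/-- The global causal facts. -/
structure L2 : Prop where
  g1 : GONE
  lim : LIM
  g2 : ORD
  g3 : HULL
  ac : AC

structure LD (d : Dat) where
  O : Set X
  N : Spc
  j : X → N.pt
  h : Dev d O N j

variable {d : Dat}

/-- The slice. -/
def LD.S (A : LD d) : Set A.N.pt := A.j '' A.O

/-- A common development. -/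
structure Com (A B : LD d) (U : Set A.N.pt) (ψ : A.N.pt → B.N.pt) : Prop where
  hull : Hull A.N A.S U
  lm : ∀ x ∈ U, LM ψ x
  sl : ∀ y ∈ A.O, A.j y ∈ U → y ∈ B.O ∧ ψ (A.j y) = B.j y

/-- Points which are identified. -/
def Rel (A B : LD d) (x : A.N.pt) (x' : B.N.pt) : Prop := ∃ U ψ, Com A B U ψ ∧ x ∈ U ∧ ψ x = x'

def FUNC : Prop := ∀ d, PDy d → ∀ (A B : LD d) U ψ U' ψ', Com A B U ψ → Com A B U' ψ' →
  EqOn ψ ψ' (U ∩ U')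

def MAX : Prop := ∀ d, PDy d → ∀ A B : LD d,
  ∃ U ψ, Com A B U ψ ∧ ∀ x x', Rel A B x x' ↔ x ∈ U ∧ ψ x = x'

def SIDE : Prop := ∀ d, PDy d → ∀ (A B : LD d) U ψ, Com A B U ψ → ∀ x ∈ U,
  (x ∈ A.S ↔ ψ x ∈ B.S) ∧ (x ∈ Fu A.N A.S ↔ ψ x ∈ Fu B.N B.S) ∧ (x ∈ Pa A.N A.S ↔ ψ x ∈ Pa B.N B.S)

def TRANS : Prop := ∀ d, PDy d → ∀ (A B C : LD d) U ψ V φ, Com A B U ψ → Com B C V φ →
  Com A C (U ∩ ψ ⁻¹' V) (φ ∘ ψ)

def SYMM : Prop := ∀ d, PDy d → ∀ (A B : LD d) U ψ, Com A B U ψ →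
  ∃ φ, Com B A (ψ '' U) φ ∧ ∀ x ∈ U, φ (ψ x) = x

def BASE : Prop := ∀ d, PDy d → ∀ (A B : LD d), ∀ y ∈ A.O, y ∈ B.O → Rel A B (A.j y) (B.j y)

/-- The facts on common developments. -/
structure L3 : Prop where
  func : FUNC
  max : MAX
  side : SIDE
  trans : TRANS
  symm : SYMM
  base : BASE

/-- Everything below the key lemma. -/
structure L0 : Prop where
  l1 : L1
  l2 : L2
  k1 : LK1
  k2 : LK2
  k3 : LK3

end Vale.Agent.P354CB
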