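import Vale.Agent.P354CB.Defs

/-!
The maximal globally hyperbolic development: statements of the key lemma, gluing, countability.
-/

open scoped ContDiff
open Set Filter Topology Metric

namespace Vale.Agent.P354CB

open Vale.Agent.P354n
open Vale.Agent.P354I (X Dat IsDev)
open Vale.Agent.P354J (PDy)
open Vale.Agent.P354XE (Tw Lor pt)
open Vale.Agent.P354XJ (Iso Tm)
open Vale.Agent.P354YC (IndAt Is)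
open Vale.Agent.P354XV (CnAt)
open Vale.Agent.P354Z (IsMGHD)

/-! ### The key lemma -/

/-- The graph of ψ over U. -/
def gr {M N : Spc} (U : Set M.pt) (ψ : M.pt → N.pt) : Set (M.pt × N.pt) :=
  (fun x => (x, ψ x)) '' U

/-- A common development without the data. -/
structure Pair (M N : Spc) (S : Set M.pt) (S' : Set N.pt) (U : Set M.pt) (ψ : M.pt → N.pt)
    (φ : N.pt → M.pt) : Prop where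
  gM : GH M S
  gN : GH N S'
  hU : Hull M S U
  hU' : Hull N S' (ψ '' U)
  lm : ∀ x ∈ U, LM ψ x ∧ φ (ψ x) = x ∧ LM φ (ψ x)
  side : ∀ x ∈ U, (x ∈ S ↔ ψ x ∈ S') ∧ (x ∈ Fu M S ↔ ψ x ∈ Fu N S') ∧ (x ∈ Pa M S ↔ ψ x ∈ Pa N S')
  edge : ∀ q ∈ S, ∀ q', (q, q') ∈ closure (gr (U ∩ S) ψ) → q ∈ U

def KA0 : Prop := ∀ M N S S' U ψ φ, Pair M N S S' U ψ φ → ∀ p p', (p, p') ∈ closure (gr U ψ) →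
  p ∈ S → p ∈ U

def KA1 : Prop := ∀ M N S S' U ψ φ, Pair M N S S' U ψ φ → ∀ p p', (p, p') ∈ closure (gr U ψ) →
  p ∉ U → p ∈ Fu M S → ∃ q q', (q, q') ∈ closure (gr U ψ) ∧ q ∉ U ∧ q ∈ Fu M S ∧
    ∀ x, Le M x q → x ∉ Pa M S → x ≠ q → x ∈ U

def KA2 : Prop := ∀ M N S S' U ψ φ, Pair M N S S' U ψ φ → ∀ q q', (q, q') ∈ closure (gr U ψ) →
  q ∈ Fu M S → Tendsto ψ (𝓝[U] q) (𝓝 q')

def KT : Prop := ∀ M, St M → ∀ (e : M.Chart) p r L c T, NB e p r L c T → ∀ P W : Set R4,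
  IsClosed P → IsOpen W → p ∈ P → p ∉ W → (∀ z ∈ P, z ∈ closedBall p r → z ≠ p → z ∈ W) →
  (∀ z ∈ P, z ∈ ball p r → ∀ a, M.g e z a a < 0 → M.g e z a (M.X e z) < 0 →
    ∀ᶠ s in 𝓝[>] (0 : ℝ), z - s • a ∈ P) →
  ∃ z ∈ ball p r, z ∉ W ∧ ∃ f : R4 → ℝ, ContDiff ℝ ∞ f ∧ ConvexOn ℝ univ f ∧ Tm e f z ∧
    ∀ᶠ x in 𝓝 z, f x < f z → x ∈ W

def KT2 : Prop := ∀ M, St M → ∀ (e : M.Chart), ∀ z ∈ tgt e, ∀ f : R4 → ℝ, ContDiff ℝ ∞ f →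
  Tm e f z → ∀ y : X, ∃ J : X → R4, ContDiff ℝ ∞ J ∧ J y = z ∧
    (∀ u ≠ 0, 0 < M.g e z (fderiv ℝ J y u) (fderiv ℝ J y u)) ∧ ∀ᶠ x in 𝓝[≠] y, f (J x) < f z

def KH : Prop := ∀ M, St M → ∀ (e : M.Chart), ∀ z ∈ tgt e, ∀ f : R4 → ℝ, ContDiff ℝ ∞ f →
  ConvexOn ℝ univ f → Tm e f z → ∀ U : Set M.pt, (∀ᶠ x in 𝓝 z, f x < f z → inv e x ∈ U) → ∀ V ∈ 𝓝 (inv e z),
  (∀ x ∈ U, ∀ w ∈ V, LL M w x → w ∈ U) → ∃ D ⊆ V, IsOpen D ∧ inv e z ∈ D ∧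
    IsPreconnected (D ∩ U) ∧ ∀ x ∈ D, ∀ w, LL M w x → w ∈ D ∨ w ∈ U ∨ ∃ u ∈ U, LL M w u

def KJ : Prop := ∀ M N, St M → St N → ∀ (U : Set M.pt) (ψ : M.pt → N.pt), IsOpen U →
  (∀ x ∈ U, LM ψ x) → ∀ (e' : N.Chart) p r L c T, NB e' p r L c T → ∀ x ∈ closure U, ∀ V ∈ 𝓝 x,
  (∀ z ∈ U, z ∈ V → On e' (ψ z) ∧ co e' (ψ z) ∈ closedBall p r) →
  (∀ z ∈ U, ∀ w ∈ V, LL M w z → w ∈ U) → ∀ e, On e x → ∃ C, ∀ᶠ z in 𝓝 (co e x),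
    inv e z ∈ U → ‖fderiv ℝ (fun y => co e' (ψ (inv e y))) z‖ ≤ C

def KR : Prop := ∀ (E : Type) [NormedAddCommGroup E] [NormedSpace ℝ E] [CompleteSpace E] (y : X)
  (J : X → E) (Ξ : X × E → X →L[ℝ] E) (K : Set E), IsCompact K →
  (∀ k ∈ K, ContDiffAt ℝ ∞ Ξ (y, k)) → (∀ᶠ x in 𝓝[≠] y, J x ∈ K ∧ HasFDerivAt J (Ξ (x, J x)) x) →
  ∃ J' : X → E, ContDiffAt ℝ ∞ J' y ∧ J' y ∈ K ∧ ∀ x ≠ y, J' x = J x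

def KS1 : Prop := ∀ g D Xf g' D' Xf', Lor g D Xf → Lor g' D' Xf' → ∀ (J : X → R4) (y : X)
  (F : R4 → R4) (K : Set R4) (C : ℝ), ContDiff ℝ ∞ J → J y ∈ D → IsCompact K → K ⊆ D' →
  (∀ᶠ x in 𝓝[≠] y, (∀ᶠ z in 𝓝 (J x), z ∈ D ∧ F z ∈ D' ∧ Is g Xf g' Xf' F z) ∧ F (J x) ∈ K ∧
    ‖fderiv ℝ F (J x)‖ ≤ C) →
  ∃ J' : X → R4, ContDiffAt ℝ ∞ J' y ∧ J' y ∈ K ∧ ∀ x ≠ y, J' x = F (J x)

def KS2 : Prop := ∀ g D Xf, Lor g D Xf → ∀ (J : X → R4) (y : X), J y ∈ D →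
  ((∀ᶠ x in 𝓝 y, ContDiffAt ℝ ∞ J x) →
    (∀ u ≠ 0, 0 < g (J y) (fderiv ℝ J y u) (fderiv ℝ J y u)) →
    ∃ d, PDy d ∧ ∀ᶠ x in 𝓝 y, IndAt g Xf J d x) ∧
  ∀ d d' : Dat, (d.h y).PosDef → IndAt g Xf J d y → IndAt g Xf J d' y →
    d.h y = d'.h y ∧ d.K y = d'.K y

def KS : Prop := ∀ M N, St M → St N → ∀ (U : Set M.pt) (ψ : M.pt → N.pt), IsOpen U →
  (∀ x ∈ U, LM ψ x) → ∀ (e : M.Chart) (e' : N.Chart) (J : X → R4) (y : X) (K : Set R4) (C : ℝ),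
  y ≠ 0 → ContDiff ℝ ∞ J → J y ∈ tgt e →
  (∀ u ≠ 0, 0 < M.g e (J y) (fderiv ℝ J y u) (fderiv ℝ J y u)) → IsCompact K → K ⊆ tgt e' →
  (∀ᶠ x in 𝓝[≠] y, inv e (J x) ∈ U ∧ On e' (ψ (inv e (J x))) ∧ co e' (ψ (inv e (J x))) ∈ K ∧
    ‖fderiv ℝ (fun z => co e' (ψ (inv e z))) (J x)‖ ≤ C) →
  ∃ χ : M.pt → N.pt, (∀ᶠ x in 𝓝 (inv e (J y)), LM χ x) ∧
    ∀ᶠ x in 𝓝[≠] y, χ =ᶠ[𝓝 (inv e (J x))] ψ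

def KEY0 : Prop := ∀ M N S S' U ψ φ, Pair M N S S' U ψ φ → ∀ p p', (p, p') ∈ closure (gr U ψ) →
  p ∉ U → p ∉ Pa M S → ∃ (D : Set M.pt) (χ : M.pt → N.pt), IsOpen D ∧ Hull M S (U ∪ D) ∧
    D ⊆ Fu M S ∧ ¬ D ⊆ U ∧ (∀ x ∈ D, LM χ x) ∧ EqOn χ ψ (D ∩ U)

def KEY : Prop := ∀ d, PDy d → ∀ A B : LD d, IsClosed {q : A.N.pt × B.N.pt | Rel A B q.1 q.2}

/-! ### Gluing -/

structure Gl {d : Dat} {ι : Type} (A : ι → LD d) (N : Spc) (κ : ∀ i, (A i).N.pt → N.pt) :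
    Prop where
  st : St N
  sc : SecondCountableTopology N.pt
  emb : ∀ i, IsOpenEmbedding (κ i)
  iso : ∀ i, IsIsom (κ i)
  cover : ∀ p, ∃ i x, κ i x = p
  eq : ∀ i k x x', κ i x = κ k x' ↔ Rel (A i) (A k) x x'

def GL1 : Prop := ∀ d, PDy d → ∀ (ι : Type) [Countable ι] (A : ι → LD d), ∃ N κ, Gl A N κ

def GL2 : Prop := ∀ d, PDy d → ∀ (ι : Type) (A : ι → LD d) N κ, Gl A N κ →
  (∀ y ≠ 0, ∃ i, y ∈ (A i).O) → ∃ j, IsDev d N j ∧ ∀ i, ∀ y ∈ (A i).O, κ i ((A i).j y) = j y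

/-! ### Countability -/

/-- A bound for the connection of g at y in the frame B with inverse B'. -/
def Gb (g : Tw) (y : R4) (B B' : R4 →L[ℝ] R4) (k : ℝ) : Prop :=
  ∃ G, IsConn g G y ∧ ∀ a b, ‖B' (G y (B a) (B b))‖ ≤ k * ‖a‖ * ‖b‖

/-- The chart has size 2 / k at z. -/
def Ok (N : Spc) (e : N.Chart) (z : R4) (k : ℝ) : Prop :=
  ∀ y ∈ closedBall z (2 / k), y ∈ tgt e ∧ Gb (N.g e) y (.id ℝ R4) (.id ℝ R4) k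

/-- C has a chart of size 1 / k, in a frame which fits the chart e, at the point z of B. -/
def Fit {d : Dat} (B : LD d) (e : B.N.Chart) (z : R4) (C : LD d) (k : ℝ) : Prop :=
  ∃ (U : Set B.N.pt) (ψ : B.N.pt → C.N.pt) (e' : C.N.Chart) (m m' : R4 →L[ℝ] R4), Com B C U ψ ∧
    inv e z ∈ U ∧ On e' (ψ (inv e z)) ∧ (∀ u, m' (m u) = u ∧ m (m' u) = u) ∧
    (∀ u, ‖u‖ ≤ 1 / k → co e' (ψ (inv e z)) + m u ∈ tgt e' ∧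
      Gb (C.N.g e') (co e' (ψ (inv e z)) + m u) m m' k) ∧
    ‖m'.comp (fderiv ℝ (fun y => co e' (ψ (inv e y))) z)‖ ≤ 2

def JS : Prop := ∀ k : ℝ, 1 ≤ k → ∃ δ > 0, ∀ g D Xf g' D' Xf', Lor g D Xf → Lor g' D' Xf' →
  ∀ (F : R4 → R4) (z v : R4) (m m' : R4 →L[ℝ] R4) (s : ℝ), ‖v‖ ≤ δ → s ≤ 1 →
  (∀ u, m' (m u) = u ∧ m (m' u) = u) → ‖m'.comp (fderiv ℝ F z)‖ ≤ 2 →
  (∀ t ∈ Ico 0 s, (∀ᶠ x in 𝓝 (z + t • v), x ∈ D ∧ F x ∈ D' ∧ Is g Xf g' Xf' F x) ∧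
    Gb g (z + t • v) (.id ℝ R4) (.id ℝ R4) k ∧ Gb g' (F (z + t • v)) m m' k) →
  ∀ t ∈ Ico 0 s, ‖m' (F (z + t • v) - F z)‖ ≤ 1 / (2 * k)

def STEP : Prop := ∀ d, PDy d → ∀ A : LD d, ∃ σ : ℕ → LD d, ∀ (B : LD d) (e : B.N.Chart) z
  (k : ℕ), 1 ≤ k → Ok B.N e z k → (∃ x, Rel B A (inv e z) x) → ∃ n, Fit B e z (σ n) k

def RUN : Prop := ∀ k : ℝ, 1 ≤ k → ∃ δ > 0, ∀ d, PDy d → ∀ (B C : LD d) (e : B.N.Chart) z v,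
  Ok B.N e z k → Fit B e z C k → ‖v‖ ≤ δ → ∃ x, Rel B C (inv e (z + v)) x

def SAT : Prop := ∀ d, PDy d → (∀ y ≠ 0, ∃ A : LD d, y ∈ A.O) →
  ∃ (A : ℕ × List ℕ → LD d), (∀ y ≠ 0, ∃ i, y ∈ (A i).O) ∧
    ∀ (B : LD d) (p : B.N.pt), ∃ i x, Rel B (A i) p x

/-! ### Local developments, the theorem -/

def LD1 : Prop := ∀ d, PDy d → (∀ y ≠ 0, CnAt d y) → ∀ y ≠ 0, ∃ g D Xf, Lor g D Xf ∧
  pt 0 y ∈ D ∧ 0 < (Xf (pt 0 y)).1 ∧ ∀ᶠ z in 𝓝 y, IndAt g Xf (pt 0) d z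

def LD2 : Prop := ∀ d, PDy d → ∀ y ≠ 0, ∀ g D Xf, Lor g D Xf → pt 0 y ∈ D → 0 < (Xf (pt 0 y)).1 →
  (∀ᶠ z in 𝓝 y, IndAt g Xf (pt 0) d z) → ∃ A : LD d, y ∈ A.O

def MG : Prop := ∀ d, PDy d → (∀ y ≠ 0, CnAt d y) → ∃ N j, IsMGHD d N j

def UQ : Prop := ∀ d, PDy d → ∀ N j N' j', IsMGHD d N j → IsMGHD d N' j' →
  ∃ κ : N.pt ≃ₜ N'.pt, IsIsom κ ∧ IsIsom κ.symm ∧ ∀ y ≠ 0, κ (j y) = j' y

end Vale.Agent.P354CB
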