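import Vale.Agent.P354CB.Defs2

/-!
Direct consequences of the basic facts.
-/

open Set Filter Topology

namespace Vale.Agent.P354CB

open Vale.Agent.P354n
open Vale.Agent.P354I (X Dat IsDev)

variable {M : Spc} {S U V : Set M.pt} {a b c x : M.pt}

theorem St.lor (h : St M) (e : M.Chart) : P354XE.Lor (M.g e) (tgt e) (M.X e) :=
  P354YC.lor_chart h.sp h.vac e

theorem ll_trans (B : B0) (C : CORNER) (h : St M) (k : LL M a b) (l : LL M b c) : LL M a c := by
  obtain ⟨u, u1, rfl, rfl⟩ := k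
  obtain ⟨v, v1, v2, rfl⟩ := l
  obtain ⟨w, w1, w2, w3⟩ := C M h 0 1 2 u (fun x => v (-1 + x * 1)) one_pos one_lt_two u1
    (B.aff h one_pos (uniqueDiffOn_Icc one_lt_two) (I := Icc 0 1)
      (fun x hx => mem_Icc.2 ⟨by linarith [hx.1], by linarith [hx.2]⟩) v1) (by simpa using v2.symm)
  have := B.ll_cv h w1 Subset.rfl two_pos
  rwa [w2 (left_mem_Icc.2 zero_le_one), w3, show (-1 : ℝ) + 2 * 1 = 1 by norm_num] at this

theorem open_past (B : B0) (O : OPEN) (h : St M) (b : M.pt) : IsOpen {a | LL M a b} := by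
  simpa only [B.ll_rev h] using O (rev M) (B.st_rev h) b

theorem Le.rfl : Le M a a := ⟨fun _ h => h, fun _ h => h⟩

theorem Le.trans (h : Le M a b) (k : Le M b c) : Le M a c :=
  ⟨fun z l => h.1 z (k.1 z l), fun w l => k.2 w (h.2 w l)⟩

theorem Hull.inter (h : Hull M S U) (k : Hull M S V) : Hull M S (U ∩ V) :=
  ⟨h.op.inter k.op, fun x m w l n => ⟨h.dn x m.1 w l n, k.dn x m.2 w l n⟩,
    fun x m w l n => ⟨h.up x m.1 w l n, k.up x m.2 w l n⟩⟩

theorem Hull.univ : Hull M S univ := ⟨isOpen_univ, fun _ _ _ _ _ => trivial, fun _ _ _ _ _ => trivial⟩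

namespace L1

variable (L : L1) (h : St M)
include L h

theorem trans (k : LL M a b) (l : LL M b c) : LL M a c := ll_trans L.b L.corner h k l

theorem le (k : LL M a b) : Le M a b := ⟨fun _ l => L.trans h k l, fun _ l => L.trans h l k⟩

theorem opF (a : M.pt) : IsOpen {b | LL M a b} := L.opn M h a

theorem opP (b : M.pt) : IsOpen {a | LL M a b} := open_past L.b L.opn h b

theorem opFu (S : Set M.pt) : IsOpen (Fu M S) := by
  rw [show Fu M S = ⋃ s ∈ S, {b | LL M s b} by ext; simp [Fu]]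
  exact isOpen_biUnion fun s _ => L.opF h s

theorem opPa (S : Set M.pt) : IsOpen (Pa M S) := by
  rw [show Pa M S = ⋃ s ∈ S, {a | LL M a s} by ext; simp [Pa]]
  exact isOpen_biUnion fun s _ => L.opP h s

theorem fu_up (k : a ∈ Fu M S) (l : LL M a b) : b ∈ Fu M S :=
  k.imp fun _ m => ⟨m.1, L.trans h m.2 l⟩

theorem pa_dn (k : b ∈ Pa M S) (l : LL M a b) : a ∈ Pa M S :=
  k.imp fun _ m => ⟨m.1, L.trans h l m.2⟩

variable (G : G1 M S)
include G

theorem fu_pa (k : a ∈ Fu M S) : a ∉ Pa M S := fun ⟨_, m⟩ =>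
  k.elim fun _ n => G.achr _ n.1 _ m.1 (L.trans h n.2 m.2)

omit L h in
theorem s_fu (k : a ∈ S) : a ∉ Fu M S ∧ a ∉ Pa M S :=
  ⟨fun ⟨_, m⟩ => G.achr _ m.1 _ k m.2, fun ⟨_, m⟩ => G.achr _ k _ m.1 m.2⟩

theorem closed_s : IsClosed S := by
  rw [show S = (Fu M S ∪ Pa M S)ᶜ from ext fun x => ⟨fun k l => l.elim (s_fu G k).1 (s_fu G k).2,
    fun k => (G.tri x).resolve_right k⟩]
  exact ((L.opFu h S).union (L.opPa h S)).isClosed_compl

/-- Curves cross S. -/
theorem cross {u : ℝ → M.pt} (k : Cv M (Icc 0 1) u) (h0 : u 0 ∉ Fu M S) (h1 : u 1 ∉ Pa M S) :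
    ∃ t ∈ Icc (0 : ℝ) 1, u t ∈ S := by
  by_contra! n
  have m0 := left_mem_Icc.2 (zero_le_one' ℝ)
  have m1 := right_mem_Icc.2 (zero_le_one' ℝ)
  obtain ⟨x, -, x1, x2⟩ := isPreconnected_Icc.image u k.1 _ _ (L.opFu h S) (L.opPa h S)
    (by rintro _ ⟨t, ht, rfl⟩; exact (G.tri _).resolve_left (n t ht))
    ⟨_, ⟨1, m1, rfl⟩, ((G.tri _).resolve_left (n 1 m1)).resolve_right h1⟩
    ⟨_, ⟨0, m0, rfl⟩, ((G.tri _).resolve_left (n 0 m0)).resolve_left h0⟩
  exact L.fu_pa h G x1 x2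

omit G in
/-- Curves from the future of S to U lie in U. -/
theorem in_dn (H : Hull M S U) {u : ℝ → M.pt} (k : Cv M (Icc 0 1) u) (h0 : u 0 ∉ Pa M S)
    (h1 : u 1 ∈ U) : MapsTo u (Icc 0 1) U := fun t ht => by
  rcases ht.2.eq_or_lt with rfl | l
  · exact h1
  refine H.dn _ h1 _ (L.b.ll_cv h k (Icc_subset_Icc_left ht.1) l) fun m => ?_
  rcases ht.1.eq_or_lt with rfl | l'
  · exact h0 m
  · exact h0 (L.pa_dn h m (L.b.ll_cv h k (Icc_subset_Icc_right ht.2) l'))

omit G in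
theorem in_up (H : Hull M S U) {u : ℝ → M.pt} (k : Cv M (Icc 0 1) u) (h0 : u 0 ∈ U)
    (h1 : u 1 ∉ Fu M S) : MapsTo u (Icc 0 1) U := fun t ht => by
  rcases ht.1.eq_or_lt with rfl | l
  · exact h0
  refine H.up _ h0 _ (L.b.ll_cv h k (Icc_subset_Icc_right ht.2) l) fun m => ?_
  rcases ht.2.eq_or_lt with rfl | l'
  · exact h1 m
  · exact h1 (L.fu_up h m (L.b.ll_cv h k (Icc_subset_Icc_left ht.1) l'))

end L1

theorem NB.mono {e : M.Chart} {p T : R4} {r r' L c : ℝ} (h : NB e p r L c T) (h0 : 0 < r')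
    (k : r' ≤ r) : NB e p r' L c T :=
  have s := Metric.closedBall_subset_closedBall (x := p) k
  ⟨h0, h.c0, h.L0, s.trans h.sub, fun z a => h.tl z (s a), fun z a z' b => h.cone z (s a) z' (s b),
    fun z a z' b => h.lip z (s a) z' (s b)⟩

variable {d : Dat}

theorem Dev.cont {O : Set X} {j : X → M.pt} (h : Dev d O M j) {y : X} (hy : y ∈ O) :
    ContinuousAt j y :=
  (continuousOn_iff_continuous_domRestrict.2 h.emb.continuous).continuousAt (h.op.mem_nhds hy)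

theorem Dev.inj {O : Set X} {j : X → M.pt} (h : Dev d O M j) : InjOn j O := fun y a z b e =>
  congrArg Subtype.val (h.emb.injective (a₁ := ⟨y, a⟩) (a₂ := ⟨z, b⟩) e)

/-- A development is a development of the part on the complement of the origin. -/
theorem dev_of {j : X → M.pt} (h : IsDev d M j) : Dev d {0}ᶜ M j :=
  ⟨⟨⟨h.spacetime, h.vacuum⟩, h.countable, h.cauchy⟩, isOpen_compl_singleton,
    (exists_ne (0 : X)).imp fun _ k => k, Subset.rfl, h.embedding,
    fun _ hy _ he => P354YC.ind_chart h hy he⟩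

theorem com_id (K : LK1) (A : LD d) : Com A A univ id :=
  ⟨Hull.univ, fun x _ => K.of_isom A.h.gh.st.sp.tensor continuous_id x, fun _ a _ => ⟨a, rfl⟩⟩

end Vale.Agent.P354CB
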